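import Vale.Agent.P132.Defs
import Vale.Agent.P078.General.Weak

/-!
# States of a von Neumann algebra, resolvents, convex approximation
-/

namespace Vale.Agent.P132.GNS

open scoped InnerProductSpace Topology ComplexOrder
open Filter Vale.Agent.P078.General

universe u

variable {H : Type u} [NormedAddCommGroup H] [InnerProductSpace ℂ H] [CompleteSpace H]
variable {M : VonNeumannAlgebra H} {φ : (H →L[ℂ] H) →ₗ[ℂ] ℂ}

theorem exists_sqrt (M : VonNeumannAlgebra H) {T : H →L[ℂ] H} (hT : T ∈ M) (h0 : 0 ≤ T) :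
    ∃ s ∈ M, star s = s ∧ s * s = T := by
  refine ⟨CFC.sqrt T, mem_of_commute_commutant M fun y hy => ?_,
    (CFC.sqrt_nonneg T).isSelfAdjoint.star_eq, CFC.sqrt_mul_sqrt_self T⟩
  rw [CFC.sqrt_eq_real_sqrt T]
  have hc : Commute T y := VonNeumannAlgebra.mem_commutant_iff.1 hy T hT
  exact (hc.cfcₙ_real _).symm

theorem map_nonneg (hφ : IsState M φ) {T : H →L[ℂ] H} (hT : T ∈ M) (h0 : 0 ≤ T) : 0 ≤ φ T := by
  obtain ⟨s, hs, hsa, rfl⟩ := exists_sqrt M hT h0
  simpa [hsa] using hφ.pos s hs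

theorem pos_re (hφ : IsState M φ) {y : H →L[ℂ] H} (hy : y ∈ M) :
    0 ≤ (φ (star y * y)).re ∧ (φ (star y * y)).im = 0 :=
  ⟨(Complex.le_def.1 (hφ.pos y hy)).1, (Complex.le_def.1 (hφ.pos y hy)).2.symm⟩

theorem map_star (hφ : IsState M φ) {y : H →L[ℂ] H} (hy : y ∈ M) :
    φ (star y) = starRingEnd ℂ (φ y) := by
  have h1 := (pos_re hφ (add_mem (one_mem M) hy)).2
  have h2 := (pos_re hφ (add_mem (one_mem M) (smul_mem' M hy Complex.I))).2
  have h3 := (pos_re hφ hy).2
  have e1 : star ((1 : H →L[ℂ] H) + y) * (1 + y) = 1 + y + star y + star y * y := by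
    rw [star_add, star_one, add_mul, one_mul, mul_add, mul_one]; abel
  have e2 : star ((1 : H →L[ℂ] H) + Complex.I • y) * (1 + Complex.I • y) =
      1 + Complex.I • y - Complex.I • star y + star y * y := by
    rw [star_add, star_one, star_smul, add_mul, one_mul, mul_add, mul_one, smul_mul_smul_comm,
      Complex.star_def, Complex.conj_I, neg_mul, Complex.I_mul_I, neg_neg, one_smul, neg_smul]
    abel
  rw [e1] at h1
  rw [e2] at h2
  simp only [map_add, map_sub, map_smul, hφ.unital, Complex.add_im, Complex.sub_im, smul_eq_mul,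
    Complex.I_mul_im, Complex.one_im] at h1 h2
  refine Complex.ext ?_ ?_
  · simp only [Complex.conj_re]; linarith
  · simp only [Complex.conj_im]; linarith

theorem map_star_mul (hφ : IsState M φ) {x y : H →L[ℂ] H} (hx : x ∈ M) (hy : y ∈ M) :
    starRingEnd ℂ (φ (star y * x)) = φ (star x * y) := by
  rw [← map_star hφ (mul_mem (star_mem hy) hx), star_mul, star_star]

theorem sq_mul_le (hφ : IsState M φ) {x y : H →L[ℂ] H} (hx : x ∈ M) (hy : y ∈ M) :
    (φ (star (x * y) * (x * y))).re ≤ ‖x‖ ^ 2 * (φ (star y * y)).re := by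
  have h0 : 0 ≤ ((‖x‖ ^ 2 : ℝ) : ℂ) • (1 : H →L[ℂ] H) - star x * x := by
    have h := CStarAlgebra.star_mul_le_algebraMap_norm_sq (a := x)
    rw [sub_nonneg]
    simpa [Algebra.algebraMap_eq_smul_one, ← Complex.coe_smul] using h
  obtain ⟨s, hs, hsa, hss⟩ :=
    exists_sqrt M (sub_mem (smul_one_mem M _) (mul_mem (star_mem hx) hx)) h0
  have h := (pos_re hφ (mul_mem hs hy)).1
  rw [show star (s * y) * (s * y) = star y * (s * s) * y by rw [star_mul, hsa]; noncomm_ring, hss,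
    mul_sub, sub_mul, mul_smul_comm, mul_one, smul_mul_assoc, map_sub, map_smul, smul_eq_mul,
    Complex.sub_re, Complex.re_ofReal_mul] at h
  rw [show star (x * y) * (x * y) = star y * (star x * x) * y by rw [star_mul]; noncomm_ring]
  linarith

theorem sq_le (hφ : IsState M φ) {x : H →L[ℂ] H} (hx : x ∈ M) :
    (φ (star x * x)).re ≤ ‖x‖ ^ 2 := by
  simpa [hφ.unital] using sq_mul_le hφ hx (one_mem M)

/-- `φ` is sequentially continuous for strong convergence of bounded families. -/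
theorem tendsto_zero (hφ : IsState M φ) {ι : Type*} {l : Filter ι} {x : ι → H →L[ℂ] H} {C : ℝ}
    (hx : ∀ i, x i ∈ M) (hC : ∀ i, ‖x i‖ ≤ C)
    (h : ∀ v, Tendsto (fun i => x i v) l (𝓝 0)) : Tendsto (fun i => φ (x i)) l (𝓝 0) := by
  rw [Metric.tendsto_nhds]
  intro ε hε
  set K := |C| + 1 with hK
  have hKpos : 0 < K := by positivity
  obtain ⟨F, η, hη, hF⟩ := hφ.cont (ε / (2 * K)) (by positivity)
  have hev : ∀ᶠ i in l, ∀ v ∈ F, ‖x i v‖ ≤ η * K := by
    rw [eventually_all_finset]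
    intro v _
    filter_upwards [(h v).norm.eventually (Iio_mem_nhds (by rw [norm_zero]; positivity : ‖(0 : H)‖ < η * K))]
      with i hi using hi.le
  filter_upwards [hev] with i hi
  have hs : ‖((K⁻¹ : ℝ) : ℂ) • x i‖ ≤ 1 := by
    rw [norm_smul, Complex.norm_real, Real.norm_of_nonneg (by positivity), inv_mul_le_iff₀ hKpos]
    linarith [hC i, le_abs_self C]
  have h1 := hF _ (smul_mem' M (hx i) _) hs fun v hv => by
    rw [smul_apply, norm_smul, Complex.norm_real, Real.norm_of_nonneg (by positivity),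
      inv_mul_le_iff₀ hKpos]
    linarith [hi v hv]
  rw [map_smul, norm_smul, Complex.norm_real, Real.norm_of_nonneg (by positivity),
    inv_mul_le_iff₀ hKpos] at h1
  rw [dist_zero_right]
  refine h1.trans_lt ?_
  field_simp
  linarith

/-- If `a` is selfadjoint then `1 + a²` has an inverse `R` with `‖R w‖, ‖a R w‖ ≤ ‖w‖`. -/
theorem exists_res {a : H →L[ℂ] H} (ha : IsSelfAdjoint a) :
    ∃ R : H →L[ℂ] H, R * (1 + a * a) = 1 ∧ (1 + a * a) * R = 1 ∧
      (∀ y, Commute a y → Commute R y) ∧ ‖R‖ ≤ 1 ∧ ‖a * R‖ ≤ 1 ∧ ‖R * a‖ ≤ 1 := by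
  have hpos : ∀ t : ℝ, 0 < 1 + t * t := fun t => by nlinarith [mul_self_nonneg t]
  have hne : ∀ t : ℝ, (1 + t * t) ≠ 0 := fun t => (hpos t).ne'
  have hc : Continuous fun t : ℝ => (1 + t * t)⁻¹ := Continuous.inv₀ (by fun_prop) hne
  set R := cfc (fun t : ℝ => (1 + t * t)⁻¹) a with hR
  have he : 1 + a * a = cfc (fun t : ℝ => 1 + t * t) a := by
    rw [cfc_add (a := a) _ _, cfc_const_one ℝ a, cfc_mul _ _ a, cfc_id' ℝ a]
  have h1 : R * (1 + a * a) = 1 := by
    rw [he, hR, ← cfc_mul _ _ a (hc.continuousOn) (by fun_prop), ← cfc_const_one ℝ a]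
    exact cfc_congr fun t _ => inv_mul_cancel₀ (hne t)
  have h2 : (1 + a * a) * R = 1 := by
    rw [he, hR, ← cfc_mul _ _ a (by fun_prop) (hc.continuousOn), ← cfc_const_one ℝ a]
    exact cfc_congr fun t _ => mul_inv_cancel₀ (hne t)
  refine ⟨R, h1, h2, fun y hy => hy.cfc_real _, ?_, ?_, ?_⟩
  · refine norm_cfc_le zero_le_one fun t _ => ?_
    rw [Real.norm_of_nonneg (inv_nonneg.2 (hpos t).le)]
    exact inv_le_one_of_one_le₀ (by nlinarith)
  all_goals
    first
      | rw [show a * R = cfc (fun t : ℝ => t * (1 + t * t)⁻¹) a by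
          rw [cfc_mul _ _ a (by fun_prop) hc.continuousOn, cfc_id' ℝ a]]
      | rw [show R * a = cfc (fun t : ℝ => t * (1 + t * t)⁻¹) a by
          rw [← (((Commute.refl a).cfc_real _).symm : Commute a R).eq,
            cfc_mul _ _ a (by fun_prop) hc.continuousOn, cfc_id' ℝ a]]
    refine norm_cfc_le zero_le_one fun t _ => ?_
    rw [Real.norm_eq_abs, abs_mul, abs_inv, abs_of_pos (hpos t),
      ← div_eq_mul_inv, div_le_one (hpos t)]
    nlinarith [sq_nonneg (|t| - 1), sq_abs t]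

/-- A point which the functionals `Re ∑ ⟪w i, · v i⟫` do not separate from a convex set is near
it in the strong topology. -/
theorem exists_close {C : Set (H →L[ℂ] H)} (hC : Convex ℝ C) (hne : C.Nonempty) (x : H →L[ℂ] H)
    (h : ∀ (n : ℕ) (v w : Fin n → H) (η : ℝ), 0 < η → ∃ c ∈ C,
      |(∑ i, ⟪w i, (c - x) (v i)⟫_ℂ).re| ≤ η)
    {n : ℕ} (v : Fin n → H) {η : ℝ} (hη : 0 < η) : ∃ c ∈ C, ∀ i, ‖(c - x) (v i)‖ ≤ η := by
  let E := PiLp 2 fun _ : Fin n => H
  let _ : InnerProductSpace ℝ E := InnerProductSpace.rclikeToReal ℂ E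
  let T : (H →L[ℂ] H) → E := fun c => WithLp.toLp 2 fun i => (c - x) (v i)
  have hconv : Convex ℝ (closure (T '' C)) := by
    refine Convex.closure ?_
    rintro _ ⟨c, hc, rfl⟩ _ ⟨d, hd, rfl⟩ s t hs ht hst
    refine ⟨s • c + t • d, hC hc hd hs ht hst, ?_⟩
    apply WithLp.ofLp_injective
    funext i
    show (s • c + t • d - x) (v i) = s • (c - x) (v i) + t • (d - x) (v i)
    simp only [add_apply, sub_apply, smul_apply, smul_sub]
    rw [show s • x (v i) = x (v i) - t • x (v i) by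
      rw [eq_sub_iff_add_eq, ← add_smul, hst, one_smul]]
    abel
  obtain ⟨u, hu, hmin⟩ := exists_norm_eq_iInf_of_complete_convex (hne.image T).closure
    isClosed_closure.isComplete hconv (0 : E)
  have hvar := (norm_eq_iInf_iff_real_inner_le_zero hconv hu).1 hmin
  have hu0 : u = 0 := by
    by_contra hu0
    have hpos : 0 < ‖u‖ ^ 2 := by positivity
    obtain ⟨c, hc, hsmall⟩ := h n v (fun i => u.ofLp i) (‖u‖ ^ 2 / 2) (by positivity)
    have h1 := hvar (T c) (subset_closure ⟨c, hc, rfl⟩)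
    rw [zero_sub, inner_neg_left, inner_sub_right, neg_nonpos, real_inner_self_eq_norm_sq] at h1
    have h2 : (inner ℝ u (T c) : ℝ) = (∑ i, ⟪u.ofLp i, (c - x) (v i)⟫_ℂ).re := by
      rw [real_inner_eq_re_inner ℂ, PiLp.inner_apply]
      rfl
    linarith [(abs_le.1 hsmall).2]
  subst hu0
  obtain ⟨_, ⟨c, hc, rfl⟩, hd⟩ := Metric.mem_closure_iff.1 hu η hη
  refine ⟨c, hc, fun i => ?_⟩
  rw [dist_zero_left] at hd
  exact (PiLp.norm_apply_le (T c) i).trans hd.le

end Vale.Agent.P132.GNS
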