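import Vale.Agent.P132.GNS.Normal

/-!
# The GNS representation maps `M` onto a von Neumann algebra (Kaplansky density)
-/

namespace Vale.Agent.P132.GNS

open scoped InnerProductSpace Topology ComplexOrder
open Filter Vale.Agent.P078.General

universe u v

variable {H : Type u} [NormedAddCommGroup H] [InnerProductSpace ℂ H] [CompleteSpace H]
variable {K : Type v} [NormedAddCommGroup K] [InnerProductSpace ℂ K] [CompleteSpace K]
variable {M : VonNeumannAlgebra H} {φ : (H →L[ℂ] H) →ₗ[ℂ] ℂ} {Ω : K}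
variable {ρ : (H →L[ℂ] H) → K →L[ℂ] K}

/-- `y` commutes with everything that commutes with `ρ M`. -/
def InBicomm (M : VonNeumannAlgebra H) (ρ : (H →L[ℂ] H) → K →L[ℂ] K) (y : K →L[ℂ] K) : Prop :=
  ∀ z : K →L[ℂ] K, (∀ x ∈ M, Commute (ρ x) z) → Commute y z

namespace IsRep

variable (hR : IsRep M φ Ω ρ)
include hR

theorem commute_comm_star {z : K →L[ℂ] K} (hz : ∀ x ∈ M, Commute (ρ x) z) :
    ∀ x ∈ M, Commute (ρ x) (star z) := fun x hx => by
  have := (hz _ (star_mem hx)).star_star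
  rwa [hR.star_eq x hx, star_star] at this

/-- Strong density for finitely many vectors. -/
theorem exists_approx {y : K →L[ℂ] K} (hy : InBicomm M ρ y) {n : ℕ} (v : Fin n → K) {η : ℝ}
    (hη : 0 < η) : ∃ x ∈ M, ∀ i, ‖(ρ x - y) (v i)‖ ≤ η := by
  classical
  let E := PiLp 2 fun _ : Fin n => K
  let e : E ≃L[ℂ] (Fin n → K) := PiLp.continuousLinearEquiv 2 ℂ fun _ : Fin n => K
  let D : (K →L[ℂ] K) → E →L[ℂ] E := fun A => e.symm.toContinuousLinearMap.comp
    ((ContinuousLinearMap.pi fun i => A.comp (ContinuousLinearMap.proj i)).comp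
      e.toContinuousLinearMap)
  have hD : ∀ A f i, (D A f).ofLp i = A (f.ofLp i) := fun A f i => rfl
  let T : ↥M.toStarSubalgebra.toSubalgebra.toSubmodule →ₗ[ℂ] E :=
    { toFun := fun x => WithLp.toLp 2 fun i => ρ x.1 (v i)
      map_add' := fun a b => WithLp.ofLp_injective 2 (funext fun i => by
        show ρ (a.1 + b.1) (v i) = ρ a.1 (v i) + ρ b.1 (v i)
        rw [hR.add _ a.2 _ b.2, add_apply])
      map_smul' := fun c a => WithLp.ofLp_injective 2 (funext fun i => by
        show ρ (c • a.1) (v i) = c • ρ a.1 (v i)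
        rw [hR.smul c _ a.2, smul_apply]) }
  let S : Submodule ℂ E := (LinearMap.range T).topologicalClosure
  have hcomp : CompleteSpace S :=
    (Submodule.isClosed_topologicalClosure _).completeSpace_coe
  have hinv : ∀ a ∈ M, ∀ f ∈ S, D (ρ a) f ∈ S := by
    intro a ha f hf
    refine map_mem_closure (D (ρ a)).continuous hf ?_
    rintro _ ⟨x, rfl⟩
    have hx : x.1 ∈ M := x.2
    exact ⟨⟨a * x.1, (mul_mem ha hx : a * x.1 ∈ M)⟩, WithLp.ofLp_injective 2 (funext fun i => by
      rw [hD]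
      show ρ (a * x.1) (v i) = ρ a (ρ x.1 (v i))
      rw [hR.mul _ ha _ hx, mul_apply_eq_comp])⟩
  have hPD : ∀ a ∈ M, ∀ f, S.starProjection (D (ρ a) f) = D (ρ a) (S.starProjection f) := by
    intro a ha f
    refine Submodule.eq_starProjection_of_mem_of_inner_eq_zero
      (hinv a ha _ (Submodule.starProjection_apply_mem _ _)) fun w hw => ?_
    rw [← map_sub, PiLp.inner_apply]
    simp only [hD]
    calc ∑ i, ⟪ρ a ((f - S.starProjection f).ofLp i), w.ofLp i⟫_ℂ
        = ∑ i, ⟪(f - S.starProjection f).ofLp i, (D (ρ (star a)) w).ofLp i⟫_ℂ := by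
          refine Finset.sum_congr rfl fun i _ => ?_
          rw [hD, hR.star_eq a ha, ContinuousLinearMap.star_eq_adjoint,
            ContinuousLinearMap.adjoint_inner_right]
      _ = 0 := by
          rw [← PiLp.inner_apply]
          exact Submodule.starProjection_inner_eq_zero _ _ (hinv _ (star_mem ha) _ hw)
  let inj : Fin n → K →L[ℂ] E := fun i =>
    e.symm.toContinuousLinearMap.comp (ContinuousLinearMap.single ℂ (fun _ : Fin n => K) i)
  let p : Fin n → Fin n → K →L[ℂ] K := fun j i =>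
    (ContinuousLinearMap.proj j).comp
      (e.toContinuousLinearMap.comp (S.starProjection.comp (inj i)))
  have hp : ∀ j i ξ, p j i ξ = (S.starProjection (inj i ξ)).ofLp j := fun _ _ _ => rfl
  have hsum : ∀ f : E, f = ∑ i, inj i (f.ofLp i) := fun f => by
    apply WithLp.ofLp_injective 2
    funext j
    rw [WithLp.ofLp_sum, Finset.sum_apply]
    show f.ofLp j = ∑ i, Pi.single (M := fun _ : Fin n => K) i (f.ofLp i) j
    simp [Pi.single_apply]
  have hinjD : ∀ (A : K →L[ℂ] K) i ξ, D A (inj i ξ) = inj i (A ξ) := fun A i ξ => by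
    apply WithLp.ofLp_injective 2
    funext j
    rw [hD]
    show A (Pi.single (M := fun _ : Fin n => K) i ξ j) = Pi.single (M := fun _ : Fin n => K) i (A ξ) j
    exact (Pi.apply_single (fun _ => A) (fun _ => map_zero A) i ξ j)
  have hcommP : ∀ j i, Commute y (p j i) := fun j i => hy _ fun a ha => by
    refine ContinuousLinearMap.ext fun ξ => ?_
    simp only [mul_apply_eq_comp, hp]
    rw [← hD (ρ a) (S.starProjection (inj i ξ)) j, ← hPD a ha, hinjD]
  have hexp : ∀ f j, (S.starProjection f).ofLp j = ∑ i, p j i (f.ofLp i) := fun f j => by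
    conv_lhs => rw [hsum f]
    simp only [hp, map_sum]
    exact map_sum (PiLp.proj 2 (fun _ : Fin n => K) j : E →L[ℂ] K) _ _
  have hPy : ∀ f, S.starProjection (D y f) = D y (S.starProjection f) := fun f => by
    apply WithLp.ofLp_injective 2
    funext j
    rw [hD, hexp, hexp, map_sum]
    refine Finset.sum_congr rfl fun i _ => ?_
    rw [hD]
    exact (congrArg (fun A : K →L[ℂ] K => A (f.ofLp i)) (hcommP j i).eq).symm
  let v0 : E := WithLp.toLp 2 v
  have hv0 : v0 ∈ S := Submodule.le_topologicalClosure _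
    ⟨⟨1, one_mem M⟩, WithLp.ofLp_injective 2 (funext fun i => by
      show ρ 1 (v i) = v i
      rw [hR.one, one_apply_eq_self])⟩
  have hyv : D y v0 ∈ S := by
    rw [← Submodule.starProjection_eq_self_iff, hPy, Submodule.starProjection_eq_self_iff.2 hv0]
  obtain ⟨_, ⟨x, rfl⟩, hd⟩ := Metric.mem_closure_iff.1 hyv η hη
  refine ⟨x.1, x.2, fun i => ?_⟩
  rw [sub_apply, ← norm_neg, neg_sub]
  refine le_trans ?_ ((PiLp.norm_apply_le (D y v0 - T x) i).trans ?_)
  · exact le_of_eq rfl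
  · rw [← dist_eq_norm]; exact hd.le

/-- Strong density for selfadjoint elements. -/
theorem exists_approx_sa {y : K →L[ℂ] K} (hy : InBicomm M ρ y) (hsa : IsSelfAdjoint y) {n : ℕ}
    (v : Fin n → K) {η : ℝ} (hη : 0 < η) :
    ∃ x ∈ M, star x = x ∧ ∀ i, ‖(ρ x - y) (v i)‖ ≤ η := by
  classical
  let C : Set (K →L[ℂ] K) := {T | ∃ x ∈ M, star x = x ∧ ρ x = T}
  have hconv : Convex ℝ C := by
    rintro _ ⟨a, ha, hsa, rfl⟩ _ ⟨b, hb, hsb, rfl⟩ s t - - -
    refine ⟨(s : ℂ) • a + (t : ℂ) • b, add_mem (smul_mem' M ha _) (smul_mem' M hb _), ?_, ?_⟩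
    · simp [star_smul, hsa, hsb]
    · rw [hR.add _ (smul_mem' M ha _) _ (smul_mem' M hb _), hR.smul _ _ ha, hR.smul _ _ hb,
        Complex.coe_smul, Complex.coe_smul]
  suffices hw : ∀ (m : ℕ) (a b : Fin m → K) (δ : ℝ), 0 < δ → ∃ c ∈ C,
      |(∑ i, ⟪b i, (c - y) (a i)⟫_ℂ).re| ≤ δ by
    obtain ⟨_, ⟨x, hx, hxs, rfl⟩, hd⟩ := exists_close hconv
      ⟨ρ 1, 1, one_mem M, star_one _, rfl⟩ y hw v hη
    exact ⟨x, hx, hxs, hd⟩
  intro m a b δ hδ
  set S : ℝ := ∑ i, (‖a i‖ + ‖b i‖) + 1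
  have hS : 0 < S := by positivity
  obtain ⟨z, hz, hzd⟩ := hR.exists_approx hy (Fin.append a b) (div_pos hδ hS)
  have hza : ∀ i, ‖(ρ z - y) (a i)‖ ≤ δ / S := fun i => by simpa using hzd (Fin.castAdd m i)
  have hzb : ∀ i, ‖(ρ z - y) (b i)‖ ≤ δ / S := fun i => by simpa only [Fin.append_right] using hzd (Fin.natAdd m i)
  refine ⟨_, ⟨(2⁻¹ : ℂ) • (z + star z), smul_mem' M (add_mem hz (star_mem hz)) _, ?_, rfl⟩, ?_⟩
  · rw [star_smul, star_add, star_star, add_comm]
    norm_num [RCLike.star_def, map_inv₀, map_ofNat]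
  rw [hR.smul _ _ (add_mem hz (star_mem hz)), hR.add _ hz _ (star_mem hz), hR.star_eq _ hz]
  have hterm : ∀ i, ⟪b i, ((2⁻¹ : ℂ) • (ρ z + star (ρ z)) - y) (a i)⟫_ℂ =
      2⁻¹ * (⟪b i, (ρ z - y) (a i)⟫_ℂ + ⟪(ρ z - y) (b i), a i⟫_ℂ) := fun i => by
    have e : ⟪y (b i), a i⟫_ℂ = ⟪b i, y (a i)⟫_ℂ := by
      conv_rhs => rw [← hsa.star_eq, ContinuousLinearMap.star_eq_adjoint,
        ContinuousLinearMap.adjoint_inner_right]
    simp only [sub_apply, smul_apply, add_apply, inner_sub_right, inner_sub_left, inner_smul_right,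
      inner_add_right, ContinuousLinearMap.star_eq_adjoint, ContinuousLinearMap.adjoint_inner_right,
      e]
    ring
  refine (Complex.abs_re_le_norm _).trans ((norm_sum_le _ _).trans ?_)
  calc ∑ i, ‖⟪b i, ((2⁻¹ : ℂ) • (ρ z + star (ρ z)) - y) (a i)⟫_ℂ‖
      ≤ ∑ i, δ / S * (‖a i‖ + ‖b i‖) := Finset.sum_le_sum fun i _ => by
        rw [hterm, norm_mul, norm_inv, Complex.norm_ofNat]
        have h1 := (norm_inner_le_norm (𝕜 := ℂ) (b i) ((ρ z - y) (a i))).trans
          (mul_le_mul_of_nonneg_left (hza i) (norm_nonneg _))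
        have h2 := (norm_inner_le_norm (𝕜 := ℂ) ((ρ z - y) (b i)) (a i)).trans
          (mul_le_mul_of_nonneg_right (hzb i) (norm_nonneg _))
        have h3 : 0 ≤ δ / S * (‖a i‖ + ‖b i‖) := by positivity
        linarith [norm_add_le ⟪b i, (ρ z - y) (a i)⟫_ℂ ⟪(ρ z - y) (b i), a i⟫_ℂ]
    _ ≤ δ := by
        rw [← Finset.mul_sum, div_mul_eq_mul_div, div_le_iff₀ hS]
        exact mul_le_mul_of_nonneg_left (le_add_of_nonneg_right zero_le_one) hδ.le

/-- Kaplansky: selfadjoint elements of norm at most `1/2` are in the image. -/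
theorem exists_preimage_sa [TopologicalSpace.SeparableSpace H] (hφ : IsState M φ)
    {y : K →L[ℂ] K} (hy : InBicomm M ρ y) (hsa : IsSelfAdjoint y) (hn : ‖y‖ ≤ 1 / 2) :
    ∃ a ∈ M, ‖a‖ ≤ 2 ∧ ρ a = y := by
  classical
  have := hR.separableSpace hφ
  obtain ⟨e, he⟩ := TopologicalSpace.exists_dense_seq K
  set g : ℝ → ℝ := fun s => s / (1 + √(1 - s * s)) with hg
  have hgc : Continuous g := by
    refine Continuous.div₀ (by fun_prop) (by fun_prop) fun s => ?_
    positivity
  have hgid : ∀ s ∈ spectrum ℝ y, g s + g s = s + s * (g s * g s) := by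
    intro s hs
    have h1 : |s| ≤ 1 / 2 := by
      have h2 : (algebraMap ℝ ℂ s) ∈ spectrum ℂ y := spectrum.algebraMap_mem ℂ hs
      have h3 : ‖algebraMap ℝ ℂ s‖ ≤ ‖y‖ := (spectrum.norm_le_norm_mul_of_mem h2).trans
        (mul_le_of_le_one_right (norm_nonneg _) ContinuousLinearMap.norm_id_le)
      simp only [Complex.coe_algebraMap, Complex.norm_real, Real.norm_eq_abs] at h3
      linarith
    have h2 : √(1 - s * s) ^ 2 = 1 - s * s := Real.sq_sqrt (by nlinarith [abs_le.1 h1])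
    have h3 : (1 + √(1 - s * s)) ≠ 0 := by positivity
    simp only [hg]
    generalize √(1 - s * s) = q at h2 h3
    field_simp
    linear_combination (-s) * h2
  set b := cfc g y with hb
  have hby : b + b = y + y * (b * b) := by
    have hgc' := hgc.continuousOn (s := spectrum ℝ y)
    calc b + b = cfc (fun s => g s + g s) y := (cfc_add (a := y) g g hgc' hgc').symm
      _ = cfc (fun s => s + s * (g s * g s)) y := cfc_congr hgid
      _ = y + y * (b * b) := by
          rw [cfc_add (a := y) (fun s => s) _ (by fun_prop) ((show Continuous fun s => s * (g s * g s) by fun_prop).continuousOn),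
            cfc_mul (fun s => s) _ y (by fun_prop) ((show Continuous fun s => g s * g s by fun_prop).continuousOn),
            cfc_mul g g y hgc' hgc', cfc_id' ℝ y]
  have hbsa : IsSelfAdjoint b := cfc_predicate _ _
  have hbc : InBicomm M ρ b := fun z hz => (hy z hz).cfc_real _
  obtain ⟨S, hS1, hS2, -, -, -, -⟩ := exists_res hbsa
  have hyS : y = b * S + b * S := by
    calc y = y * ((1 + b * b) * S) := by rw [hS2, mul_one]
      _ = (b + b) * S := by rw [hby]; noncomm_ring
      _ = b * S + b * S := add_mul _ _ _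
  have hx : ∀ N : ℕ, ∃ x ∈ M, star x = x ∧ ∀ i : Fin (N + 1),
      ‖(ρ x - b) (S (e i))‖ ≤ 1 / ((N : ℝ) + 1) ∧
        ‖(ρ x - b) (b (S (e i)))‖ ≤ 1 / ((N : ℝ) + 1) := by
    intro N
    obtain ⟨x, hx, hxs, hd⟩ := hR.exists_approx_sa hbc hbsa
      (Fin.append (fun i : Fin (N + 1) => S (e i)) fun i : Fin (N + 1) => b (S (e i)))
      (η := 1 / ((N : ℝ) + 1)) (by positivity)
    exact ⟨x, hx, hxs, fun i => ⟨by simpa only [Fin.append_left] using hd (Fin.castAdd _ i),
      by simpa only [Fin.append_right] using hd (Fin.natAdd _ i)⟩⟩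
  choose x hxM hxs hxd using hx
  choose R hR1 hR2 hRc hRn hxR hRx using fun N => exists_res (a := x N) (hxs N)
  have hRM : ∀ N, R N ∈ M := fun N => mem_of_commute_commutant M fun z hz =>
    ((hRc N) z (VonNeumannAlgebra.mem_commutant_iff.1 hz (x N) (hxM N))).symm
  set f : ℕ → H →L[ℂ] H := fun N => x N * R N + x N * R N with hf
  have hfM : ∀ N, f N ∈ M := fun N => add_mem (mul_mem (hxM N) (hRM N)) (mul_mem (hxM N) (hRM N))
  have hfn : ∀ N, ‖f N‖ ≤ 2 := fun N => (norm_add_le _ _).trans (by linarith [hxR N])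
  refine hR.exists_of_tendsto hφ hfM hfn fun ξ => ?_
  rw [← tendsto_sub_nhds_zero_iff]
  refine (tendsto_of_dense (T := fun N => ρ (f N) - y) (C := 2 + ‖y‖) (fun N => (norm_sub_le _ _).trans
    (add_le_add ((hR.norm_le _ (hfM N)).trans (hfn N)) le_rfl)) he ?_ ξ).congr fun N => by
      rw [sub_apply]
  rintro _ ⟨i, rfl⟩
  refine squeeze_zero_norm' (eventually_atTop.2 ⟨i, fun N hN => ?_⟩)
    (by simpa using (tendsto_one_div_add_atTop_nhds_zero_nat (𝕜 := ℝ)).const_mul (4 : ℝ))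
  set a := ρ (x N) with ha
  set T := ρ (R N) with hT
  have haa : ρ (1 + x N * x N) = 1 + a * a := by
    rw [hR.add _ (one_mem M) _ (mul_mem (hxM N) (hxM N)), hR.one, hR.mul _ (hxM N) _ (hxM N)]
  have hm1 : (1 + x N * x N) ∈ M := add_mem (one_mem M) (mul_mem (hxM N) (hxM N))
  have hT1 : T * (1 + a * a) = 1 := by rw [← haa, ← hR.mul _ (hRM N) _ hm1, hR1, hR.one]
  have hTa : T * a = a * T := by
    rw [hT, ha, ← hR.mul _ (hRM N) _ (hxM N), ← hR.mul _ (hxM N) _ (hRM N),
      ((hRc N) (x N) (Commute.refl _)).eq]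
  have hTn : ‖T‖ ≤ 1 := (hR.norm_le _ (hRM N)).trans (hRn N)
  have hTan : ‖T * a‖ ≤ 1 := by
    rw [hT, ha, ← hR.mul _ (hRM N) _ (hxM N)]
    exact (hR.norm_le _ (mul_mem (hRM N) (hxM N))).trans (hRx N)
  have hkey : a * T - b * S = T * (a - b) * S - T * a * (a - b) * (b * S) := by
    calc a * T - b * S = T * a * ((1 + b * b) * S) - T * (1 + a * a) * (b * S) := by
          rw [hS2, hT1, mul_one, one_mul, hTa]
      _ = T * (a - b) * S - T * a * (a - b) * (b * S) := by noncomm_ring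
  have hfy : ρ (f N) - y = (a * T - b * S) + (a * T - b * S) := by
    rw [hf, hyS]
    simp only
    rw [hR.add _ (mul_mem (hxM N) (hRM N)) _ (mul_mem (hxM N) (hRM N)),
      hR.mul _ (hxM N) _ (hRM N)]
    abel
  have hb2 : ‖(a * T - b * S) (e i)‖ ≤ 2 * (1 / ((N : ℝ) + 1)) := by
    rw [hkey, sub_apply]
    refine (norm_sub_le _ _).trans ?_
    obtain ⟨h1, h2⟩ := hxd N ⟨i, Nat.lt_succ_of_le hN⟩
    rw [two_mul]
    refine add_le_add ?_ ?_
    · show ‖T ((a - b) (S (e i)))‖ ≤ _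
      exact ((T.le_opNorm _).trans (mul_le_of_le_one_left (norm_nonneg _) hTn)).trans h1
    · show ‖(T * a) ((a - b) (b (S (e i))))‖ ≤ _
      exact (((T * a).le_opNorm _).trans (mul_le_of_le_one_left (norm_nonneg _) hTan)).trans h2
  rw [hfy, add_apply]
  refine (norm_add_le _ _).trans ?_
  rw [one_div] at hb2
  linarith

/-- `ρ M` is a von Neumann algebra, with bounded preimages. -/
theorem exists_preimage [TopologicalSpace.SeparableSpace H] (hφ : IsState M φ)
    {y : K →L[ℂ] K} (hy : InBicomm M ρ y) : ∃ a ∈ M, ‖a‖ ≤ 8 * ‖y‖ ∧ ρ a = y := by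
  have hs : InBicomm M ρ (star y) := fun z hz => by
    simpa using (hy _ (hR.commute_comm_star hz)).star_star
  have key : ∀ w : K →L[ℂ] K, InBicomm M ρ w → IsSelfAdjoint w →
      ∃ a ∈ M, ‖a‖ ≤ 4 * ‖w‖ ∧ ρ a = w := by
    intro w hw hwsa
    rcases eq_or_ne w 0 with rfl | hw0
    · exact ⟨0, zero_mem M, by simp, hR.zero⟩
    have hpos : 0 < ‖w‖ := norm_pos_iff.2 hw0
    set r : ℝ := 2 * ‖w‖ with hr
    obtain ⟨a, ha, han, hra⟩ := hR.exists_preimage_sa hφ (y := ((r⁻¹ : ℝ) : ℂ) • w)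
      (fun z hz => (hw z hz).smul_left _)
      (by simp [IsSelfAdjoint, star_smul, hwsa.star_eq]) (le_of_eq (by
        rw [norm_smul, Complex.norm_real, Real.norm_of_nonneg (by positivity), hr]
        field_simp))
    refine ⟨(r : ℂ) • a, smul_mem' M ha _, ?_, ?_⟩
    · rw [norm_smul, Complex.norm_real, Real.norm_of_nonneg (by positivity), hr]
      nlinarith
    · rw [hR.smul _ _ ha, hra, smul_smul, ← Complex.ofReal_mul, mul_inv_cancel₀ (by positivity),
        Complex.ofReal_one, one_smul]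
  set u := (2⁻¹ : ℂ) • (y + star y) with hu
  set w := (-(Complex.I) * 2⁻¹) • (y - star y) with hw
  have husa : IsSelfAdjoint u := by
    rw [IsSelfAdjoint, hu, star_smul, star_add, star_star, add_comm]
    norm_num [RCLike.star_def, map_inv₀, map_ofNat]
  have hwsa : IsSelfAdjoint w := by
    rw [IsSelfAdjoint, hw, star_smul, star_sub, star_star, ← neg_sub y (star y), smul_neg,
      ← neg_smul]
    norm_num [RCLike.star_def, map_inv₀, map_ofNat]
  obtain ⟨a, ha, han, hra⟩ := key u (fun z hz => ((hy z hz).add_left (hs z hz)).smul_left _) husa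
  obtain ⟨c, hc, hcn, hrc⟩ := key w (fun z hz => ((hy z hz).sub_left (hs z hz)).smul_left _) hwsa
  have hun : ‖u‖ ≤ ‖y‖ := by
    rw [hu, norm_smul, norm_inv, Complex.norm_ofNat]
    linarith [norm_add_le y (star y), norm_star y]
  have hwn : ‖w‖ ≤ ‖y‖ := by
    rw [hw, norm_smul, norm_mul, norm_neg, Complex.norm_I, one_mul, norm_inv, Complex.norm_ofNat]
    linarith [norm_sub_le y (star y), norm_star y]
  refine ⟨a + Complex.I • c, add_mem ha (smul_mem' M hc _), ?_, ?_⟩
  · refine (norm_add_le _ _).trans ?_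
    rw [norm_smul, Complex.norm_I, one_mul]
    linarith
  · rw [hR.add _ ha _ (smul_mem' M hc _), hR.smul _ _ hc, hra, hrc, hu, hw, smul_smul,
      ← mul_assoc, mul_neg, Complex.I_mul_I, neg_neg, one_mul, ← smul_add, add_add_sub_cancel,
      ← two_smul ℂ y, smul_smul, inv_mul_cancel₀ two_ne_zero, one_smul]

end IsRep

end Vale.Agent.P132.GNS
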