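import Vale.Agent.P132.Iface
import Vale.Agent.P132.GNS.Onto

/-!
# Reduction of a faithful normal state to a cyclic separating vector

`exists_gns` gives the standard form; `stmtGNS` is the reduction for the bicentralizer.
-/

namespace Vale.Agent.P132.GNS

open scoped InnerProductSpace Topology ComplexOrder
open Filter Vale.Agent.P078.General

universe u v

variable {H : Type u} [NormedAddCommGroup H] [InnerProductSpace ℂ H] [CompleteSpace H]
variable {K : Type v} [NormedAddCommGroup K] [InnerProductSpace ℂ K] [CompleteSpace K]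
variable {M : VonNeumannAlgebra H} {φ : (H →L[ℂ] H) →ₗ[ℂ] ℂ} {Ω : K}
variable {ρ : (H →L[ℂ] H) → K →L[ℂ] K}

/-- `ρ M` is the von Neumann algebra `N`. -/
def IsImage (M : VonNeumannAlgebra H) (ρ : (H →L[ℂ] H) → K →L[ℂ] K) (N : VonNeumannAlgebra K) :
    Prop :=
  ∀ y, y ∈ N ↔ ∃ x ∈ M, ρ x = y

namespace IsRep

variable (hR : IsRep M φ Ω ρ)
include hR

theorem sum_eq_zero {x : H →L[ℂ] H} (hφ : IsState M φ) (hx : x ∈ M) (h : ρ x Ω = 0) : x = 0 := by
  refine hφ.faithful x hx ?_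
  rw [← hR.inner_eq x hx x hx, h, inner_zero_left]

theorem inj (hφ : IsState M φ) {x y : H →L[ℂ] H} (hx : x ∈ M) (hy : y ∈ M) (h : ρ x = ρ y) :
    x = y :=
  sub_eq_zero.1 (hR.sum_eq_zero hφ (sub_mem hx hy) (by rw [hR.sub hx hy, h, sub_self, zero_apply]))

theorem inner_omega {x : H →L[ℂ] H} (hx : x ∈ M) : ⟪Ω, ρ x Ω⟫_ℂ = φ x := by
  simpa [hR.one] using hR.inner_eq 1 (one_mem M) x hx

theorem exists_image [TopologicalSpace.SeparableSpace H] (hφ : IsState M φ) :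
    ∃ N : VonNeumannAlgebra K, IsImage M ρ N := by
  refine ⟨⟨{
      carrier := {y | ∃ x ∈ M, ρ x = y}
      mul_mem' := ?_
      one_mem' := ⟨1, one_mem M, hR.one⟩
      add_mem' := ?_
      zero_mem' := ⟨0, zero_mem M, hR.zero⟩
      algebraMap_mem' := fun c => ⟨c • 1, smul_mem' M (one_mem M) c, by
        rw [hR.smul c 1 (one_mem M), hR.one, Algebra.algebraMap_eq_smul_one]⟩
      star_mem' := ?_ }, ?_⟩, fun y => Iff.rfl⟩
  · rintro _ _ ⟨a, ha, rfl⟩ ⟨b, hb, rfl⟩; exact ⟨a * b, mul_mem ha hb, hR.mul a ha b hb⟩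
  · rintro _ _ ⟨a, ha, rfl⟩ ⟨b, hb, rfl⟩; exact ⟨a + b, add_mem ha hb, hR.add a ha b hb⟩
  · rintro _ ⟨a, ha, rfl⟩; exact ⟨star a, star_mem ha, hR.star_eq a ha⟩
  · refine Set.Subset.antisymm (fun y hy => ?_) Set.subset_centralizer_centralizer
    have hbc : InBicomm M ρ y := fun z hz => by
      refine (hy z ?_).symm
      rintro _ ⟨x, hx, rfl⟩
      exact (hz x hx).eq
    obtain ⟨a, ha, -, h⟩ := hR.exists_preimage hφ hbc
    exact ⟨a, ha, h⟩

/-- Strong continuity on the unit ball, with finitely many test vectors. -/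
theorem exists_test (hφ : IsState M φ) (ξ : K) {η : ℝ} (hη : 0 < η) :
    ∃ (F : Finset H) (δ : ℝ), 0 < δ ∧
      ∀ y ∈ M, ‖y‖ ≤ 1 → (∀ v ∈ F, ‖y v‖ ≤ δ) → ‖ρ y ξ‖ ≤ η := by
  classical
  obtain ⟨z, hz, hd⟩ := hR.dense ξ (η / 2) (by positivity)
  obtain ⟨G, θ, hθ, hG⟩ := hφ.cont ((η / 2) ^ 2 / (‖z‖ ^ 2 + 1)) (by positivity)
  refine ⟨G.image z, θ * (‖z‖ ^ 2 + 1) / (‖z‖ + 1), by positivity, fun y hy hy1 hv => ?_⟩
  set L : ℝ := ‖z‖ ^ 2 + 1 with hL
  have hLpos : 0 < L := by positivity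
  set T := star (y * z) * (y * z) with hT
  have hTn : ‖T‖ ≤ L := by
    rw [hT, CStarRing.norm_star_mul_self, hL]
    have h1 : ‖y * z‖ ≤ ‖z‖ := (norm_mul_le _ _).trans (mul_le_of_le_one_left (norm_nonneg _) hy1)
    nlinarith [norm_nonneg (y * z)]
  have hTM : T ∈ M := mul_mem (star_mem (mul_mem hy hz)) (mul_mem hy hz)
  have h1 := hG (((L⁻¹ : ℝ) : ℂ) • T) (smul_mem' M hTM _) (by
      rw [norm_smul, Complex.norm_real, Real.norm_of_nonneg (by positivity),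
        inv_mul_le_iff₀ hLpos]; linarith) fun u hu => by
    rw [smul_apply, norm_smul, Complex.norm_real, Real.norm_of_nonneg (by positivity),
      inv_mul_le_iff₀ hLpos]
    have h2 : ‖star (y * z)‖ ≤ ‖z‖ + 1 := by
      rw [norm_star]
      linarith [(norm_mul_le y z).trans (mul_le_of_le_one_left (norm_nonneg _) hy1)]
    have h3 := hv (z u) (Finset.mem_image_of_mem _ hu)
    simp only [hT, mul_apply_eq_comp]
    refine ((star (y * z)).le_opNorm _).trans ((mul_le_mul h2 h3 (norm_nonneg _) (by positivity)).trans ?_)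
    rw [mul_comm (‖z‖ + 1), div_mul_cancel₀ _ (by positivity)]
    exact le_of_eq (mul_comm _ _)
  rw [map_smul, norm_smul, Complex.norm_real, Real.norm_of_nonneg (by positivity),
    inv_mul_le_iff₀ hLpos, mul_div_cancel₀ _ hLpos.ne'] at h1
  have h4 : ‖ρ y (ρ z Ω)‖ ≤ η / 2 := by
    rw [hR.apply_apply hy hz]
    refine le_of_pow_le_pow_left₀ two_ne_zero (by positivity) ?_
    rw [hR.norm_sq (mul_mem hy hz)]
    exact (Complex.re_le_norm _).trans h1
  have h5 : ‖ρ y (ξ - ρ z Ω)‖ ≤ η / 2 := by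
    refine ((ρ y).le_opNorm _).trans ?_
    refine (mul_le_of_le_one_left (norm_nonneg _) ((hR.norm_le _ hy).trans hy1)).trans ?_
    rwa [← norm_neg, neg_sub]
  calc ‖ρ y ξ‖ = ‖ρ y (ρ z Ω) + ρ y (ξ - ρ z Ω)‖ := by rw [← map_add, add_sub_cancel]
    _ ≤ η / 2 + η / 2 := (norm_add_le _ _).trans (add_le_add h4 h5)
    _ = η := add_halves η

variable {N : VonNeumannAlgebra K} (hN : IsImage M ρ N)
include hN

omit hR in
theorem mem_image {x : H →L[ℂ] H} (hx : x ∈ M) : ρ x ∈ N := (hN _).2 ⟨x, hx, rfl⟩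

theorem exists_lift [TopologicalSpace.SeparableSpace H] (hφ : IsState M φ) {y : K →L[ℂ] K}
    (hy : y ∈ N) : ∃ x ∈ M, ‖x‖ ≤ 8 * ‖y‖ ∧ ρ x = y := by
  refine hR.exists_preimage hφ fun z hz => ?_
  obtain ⟨x, hx, rfl⟩ := (hN y).1 hy
  exact hz x hx

theorem isCS (hφ : IsState M φ) : IsCS N Ω := by
  refine ⟨?_, fun ξ η hη => ?_, fun y hy h => ?_⟩
  · have h := hR.norm_sq (one_mem M)
    rw [hR.one, one_apply_eq_self] at h
    simp only [star_one, mul_one, hφ.unital, Complex.one_re] at h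
    nlinarith [norm_nonneg Ω]
  · obtain ⟨x, hx, hd⟩ := hR.dense ξ η hη
    exact ⟨ρ x, IsRep.mem_image hN hx, hd⟩
  · obtain ⟨x, hx, rfl⟩ := (hN y).1 hy
    rw [hR.sum_eq_zero hφ hx h, hR.zero]

theorem isTypeIII (hφ : IsState M φ) (h3 : IsTypeIII M) : IsTypeIII N := by
  refine ⟨fun w hw hc => ?_, ?_, fun q hq hproj hq0 => ?_⟩
  · obtain ⟨z, hz, rfl⟩ := (hN w).1 hw
    obtain ⟨c, rfl⟩ := h3.factor z hz fun x hx => hR.inj hφ (mul_mem hz hx) (mul_mem hx hz) (by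
      rw [hR.mul _ hz _ hx, hR.mul _ hx _ hz]; exact hc _ (IsRep.mem_image hN hx))
    exact ⟨c, by rw [hR.smul c 1 (one_mem M), hR.one]⟩
  · obtain ⟨p, hp, hpp, hp0, hp1⟩ := h3.proper
    refine ⟨ρ p, IsRep.mem_image hN hp, ⟨?_, ?_⟩, fun h => hp0 ?_, fun h => hp1 ?_⟩
    · show ρ p * ρ p = ρ p
      rw [← hR.mul _ hp _ hp, hpp.isIdempotentElem.eq]
    · show star (ρ p) = ρ p
      rw [← hR.star_eq _ hp, hpp.isSelfAdjoint.star_eq]
    · exact hR.inj hφ hp (zero_mem M) (h.trans hR.zero.symm)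
    · exact hR.inj hφ hp (one_mem M) (h.trans hR.one.symm)
  · obtain ⟨p, hp, rfl⟩ := (hN q).1 hq
    obtain ⟨S, hS, hS1, hS2⟩ := h3.equiv_one p hp
      ⟨hR.inj hφ (mul_mem hp hp) hp (by rw [hR.mul _ hp _ hp]; exact hproj.isIdempotentElem.eq),
        hR.inj hφ (star_mem hp) hp (by rw [hR.star_eq _ hp]; exact hproj.isSelfAdjoint.star_eq)⟩
      fun h => hq0 (by rw [h, hR.zero])
    refine ⟨ρ S, IsRep.mem_image hN hS, ?_, ?_⟩
    · rw [← hR.star_eq _ hS, ← hR.mul _ (star_mem hS) _ hS, hS1, hR.one]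
    · rw [← hR.star_eq _ hS, ← hR.mul _ hS _ (star_mem hS), hS2]

theorem hasFullSpectrum (hφ : IsState M φ) (hS : HasFullSpectrum M) :
    HasFullSpectrum N := by
  classical
  intro ψ hψ l hl ε hε
  let f : ↥M.toStarSubalgebra.toSubalgebra.toSubmodule →ₗ[ℂ] ℂ :=
    { toFun := fun x => ψ (ρ x.1)
      map_add' := fun a b => by
        show ψ (ρ (a.1 + b.1)) = ψ (ρ a.1) + ψ (ρ b.1)
        rw [hR.add _ a.2 _ b.2, map_add]
      map_smul' := fun c a => by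
        show ψ (ρ (c • a.1)) = c • ψ (ρ a.1)
        rw [hR.smul c _ a.2, map_smul] }
  obtain ⟨χ, hχ⟩ := LinearMap.exists_extend f
  have hχe : ∀ x ∈ M, χ x = ψ (ρ x) := fun x hx => LinearMap.congr_fun hχ ⟨x, hx⟩
  have hst : IsState M χ := by
    refine ⟨fun δ hδ => ?_, fun y hy => ?_, ?_, fun y hy h => ?_⟩
    · obtain ⟨G, θ, hθ, hG⟩ := hψ.cont δ hδ
      choose F d hd hF using fun w => hR.exists_test hφ w hθ
      rcases G.eq_empty_or_nonempty with rfl | hne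
      · exact ⟨∅, 1, one_pos, fun y hy hy1 _ => by
          rw [hχe y hy]
          exact hG _ (IsRep.mem_image hN hy) ((hR.norm_le _ hy).trans hy1) (by simp)⟩
      obtain ⟨w0, -, hmin⟩ := G.exists_min_image d hne
      refine ⟨G.biUnion F, d w0, hd w0, fun y hy hy1 hv => ?_⟩
      rw [hχe y hy]
      refine hG _ (IsRep.mem_image hN hy) ((hR.norm_le _ hy).trans hy1) fun w hw => ?_
      exact hF w y hy hy1 fun v hv' => (hv v (Finset.mem_biUnion.2 ⟨w, hw, hv'⟩)).trans (hmin w hw)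
    · rw [hχe _ (mul_mem (star_mem hy) hy), hR.mul _ (star_mem hy) _ hy, hR.star_eq _ hy]
      exact hψ.pos _ (IsRep.mem_image hN hy)
    · rw [hχe _ (one_mem M), hR.one, hψ.unital]
    · rw [hχe _ (mul_mem (star_mem hy) hy), hR.mul _ (star_mem hy) _ hy, hR.star_eq _ hy] at h
      exact hR.inj hφ hy (zero_mem M)
        ((hψ.faithful _ (IsRep.mem_image hN hy) h).trans hR.zero.symm)
  have tr : ∀ a ∈ M, ∀ b ∈ M, χ (star a * b) = ψ (star (ρ a) * ρ b) ∧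
      χ (a * star b) = ψ (ρ a * star (ρ b)) := fun a ha b hb => by
    rw [hχe _ (mul_mem (star_mem ha) hb), hχe _ (mul_mem ha (star_mem hb)),
      hR.mul _ (star_mem ha) _ hb, hR.mul _ ha _ (star_mem hb), hR.star_eq _ ha, hR.star_eq _ hb]
    exact ⟨rfl, rfl⟩
  obtain ⟨x, hx, hx1, hxy⟩ := hS χ hst l hl ε hε
  refine ⟨ρ x, IsRep.mem_image hN hx, (tr x hx x hx).1 ▸ hx1, fun w hw => ?_⟩
  obtain ⟨y, hy, rfl⟩ := (hN w).1 hw
  have h := hxy y hy
  rwa [(tr x hx y hy).2, (tr y hy x hx).1, (tr y hy y hy).1, (tr y hy y hy).2] at h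

theorem inBicentralizer [TopologicalSpace.SeparableSpace H] (hφ : IsState M φ)
    {a : H →L[ℂ] H} (ha : InBicentralizer M φ a) : InBicentralizer N (vecState Ω) (ρ a) := by
  refine ⟨IsRep.mem_image hN ha.1, fun w hw ⟨C, hC⟩ hcen v => ?_⟩
  have hv : ∀ z ∈ M, vecState Ω (ρ z) = φ z := fun z hz => hR.inner_omega hz
  choose x hx hxn hxw using fun n => hR.exists_lift hN hφ (hw n)
  have hcen' : ∀ δ : ℝ, 0 < δ → ∀ᶠ n in atTop, Centralises M φ (x n) δ := fun δ hδ => by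
    filter_upwards [hcen δ hδ] with n hn y hy
    have h := hn (ρ y) (IsRep.mem_image hN hy)
    rw [← hxw n, ← hR.mul _ hy _ (hx n), ← hR.mul _ (hx n) _ hy, hv _ (mul_mem hy (hx n)),
      hv _ (mul_mem (hx n) hy)] at h
    exact h.trans (mul_le_mul_of_nonneg_left (hR.norm_le _ hy) hδ.le)
  have h0 := ha.2 x hx ⟨8 * C, fun n => (hxn n).trans (by linarith [hC n])⟩ hcen'
  have hcm : ∀ n, a * x n - x n * a ∈ M := fun n =>
    sub_mem (mul_mem ha.1 (hx n)) (mul_mem (hx n) ha.1)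
  refine (hR.tendsto_zero hφ hcm (C := 2 * (‖a‖ * (8 * C))) (fun n => ?_) h0 v).congr fun n => ?_
  · refine (norm_sub_le _ _).trans ?_
    have h1 : ‖x n‖ ≤ 8 * C := (hxn n).trans (by linarith [hC n])
    have h2 := (norm_mul_le a (x n)).trans (mul_le_mul_of_nonneg_left h1 (norm_nonneg a))
    have h3 := (norm_mul_le (x n) a).trans (mul_le_mul_of_nonneg_right h1 (norm_nonneg a))
    linarith
  · rw [hR.sub (mul_mem ha.1 (hx n)) (mul_mem (hx n) ha.1), hR.mul _ ha.1 _ (hx n),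
      hR.mul _ (hx n) _ ha.1, hxw n]

end IsRep

/-- The standard form of `(M, φ)`. -/
theorem exists_gns {H : Type u} [NormedAddCommGroup H] [InnerProductSpace ℂ H] [CompleteSpace H]
    [TopologicalSpace.SeparableSpace H] {M : VonNeumannAlgebra H} {φ : (H →L[ℂ] H) →ₗ[ℂ] ℂ}
    (hφ : IsState M φ) :
    ∃ (K : Type u) (_ : NormedAddCommGroup K) (_ : InnerProductSpace ℂ K) (_ : CompleteSpace K)
      (_ : TopologicalSpace.SeparableSpace K) (N : VonNeumannAlgebra K) (Ω : K)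
      (ρ : (H →L[ℂ] H) → K →L[ℂ] K),
      IsRep M φ Ω ρ ∧ IsImage M ρ N ∧ IsCS N Ω ∧
      (IsTypeIII M → IsTypeIII N) ∧ (HasFullSpectrum M → HasFullSpectrum N) := by
  obtain ⟨K, i1, i2, i3, Ω, ρ, hR⟩ := exists_rep hφ
  obtain ⟨N, hN⟩ := hR.exists_image hφ
  exact ⟨K, i1, i2, i3, hR.separableSpace hφ, N, Ω, ρ, hR, hN, hR.isCS hN hφ,
    hR.isTypeIII hN hφ, hR.hasFullSpectrum hN hφ⟩

/-- GNS. -/
theorem stmtGNS : Iface.StmtGNS.{u} := by
  intro H _ _ _ _ M φ hφ h3 hS hmain a ha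
  obtain ⟨K, i1, i2, i3, i4, N, Ω, ρ, hR, hN, hCS, hT, hF⟩ := exists_gns hφ
  obtain ⟨c, hc⟩ := hmain K N Ω hCS (hT h3) (hF hS) (ρ a) (hR.inBicentralizer hN hφ ha)
  refine ⟨c, hR.inj hφ ha.1 (smul_mem' M (one_mem M) c) ?_⟩
  rw [hc, hR.smul c 1 (one_mem M), hR.one]

end Vale.Agent.P132.GNS
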