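import Vale.Agent.P132.GNS.Space

/-!
# The GNS representation is normal and its space is separable
-/

namespace Vale.Agent.P132.GNS

open scoped InnerProductSpace Topology ComplexOrder
open Filter Vale.Agent.P078.General

universe u v

variable {H : Type u} [NormedAddCommGroup H] [InnerProductSpace ℂ H] [CompleteSpace H]
variable {K : Type v} [NormedAddCommGroup K] [InnerProductSpace ℂ K] [CompleteSpace K]
variable {M : VonNeumannAlgebra H} {φ : (H →L[ℂ] H) →ₗ[ℂ] ℂ} {Ω : K}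
variable {ρ : (H →L[ℂ] H) → K →L[ℂ] K}

omit [CompleteSpace H] in
/-- A bounded family of operators tending to zero on a dense set tends to zero everywhere. -/
theorem tendsto_of_dense {ι : Type*} {l : Filter ι} {T : ι → H →L[ℂ] H} {C : ℝ}
    (hT : ∀ i, ‖T i‖ ≤ C) {D : Set H} (hD : Dense D)
    (h : ∀ v ∈ D, Tendsto (fun i => T i v) l (𝓝 0)) (v : H) :
    Tendsto (fun i => T i v) l (𝓝 0) := by
  rw [Metric.tendsto_nhds]
  intro ε hε
  obtain ⟨w, hw, hvw⟩ := Metric.mem_closure_iff.1 (hD v) (ε / (2 * (|C| + 1))) (by positivity)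
  filter_upwards [Metric.tendsto_nhds.1 (h w hw) (ε / 2) (by positivity)] with i hi
  rw [dist_zero_right] at hi ⊢
  rw [dist_eq_norm] at hvw
  have h1 : ‖T i (v - w)‖ ≤ ε / 2 := by
    refine ((T i).le_opNorm _).trans ?_
    calc ‖T i‖ * ‖v - w‖ ≤ (|C| + 1) * (ε / (2 * (|C| + 1))) := by
          refine mul_le_mul ?_ hvw.le (norm_nonneg _) (by positivity)
          linarith [hT i, le_abs_self C]
      _ = ε / 2 := by field_simp
  calc ‖T i v‖ = ‖T i w + T i (v - w)‖ := by rw [← map_add, add_sub_cancel]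
    _ ≤ ‖T i w‖ + ‖T i (v - w)‖ := norm_add_le _ _
    _ < ε := by linarith

/-- Weak limits of elements of an algebra stay in it. -/
theorem mem_of_weak_limit {κ : Type*} {l : Filter κ} [l.NeBot] (N : VonNeumannAlgebra H)
    {x : κ → H →L[ℂ] H} {a : H →L[ℂ] H} (hx : ∀ i, x i ∈ N)
    (h : ∀ v w, Tendsto (fun i => ⟪x i v, w⟫_ℂ) l (𝓝 ⟪a v, w⟫_ℂ)) : a ∈ N := by
  refine mem_of_commute_commutant N fun y hy => ?_
  refine ContinuousLinearMap.ext fun v => ext_inner_right ℂ fun w => ?_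
  simp only [mul_apply_eq_comp]
  have h3 : Tendsto (fun i => ⟪y (x i v), w⟫_ℂ) l (𝓝 ⟪y (a v), w⟫_ℂ) := by
    simpa only [← ContinuousLinearMap.adjoint_inner_right] using
      h v (ContinuousLinearMap.adjoint y w)
  refine tendsto_nhds_unique h3 ((h (y v) w).congr' (.of_forall fun i => ?_))
  have e := congrArg (fun f : H →L[ℂ] H => f v) (VonNeumannAlgebra.mem_commutant_iff.1 hy _ (hx i))
  simp only [mul_apply_eq_comp] at e
  exact congrArg (fun u => ⟪u, w⟫_ℂ) e

namespace IsRep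

variable (hR : IsRep M φ Ω ρ)
include hR

theorem zero : ρ 0 = 0 := by simpa using hR.smul 0 1 (one_mem M)

theorem sub {x y : H →L[ℂ] H} (hx : x ∈ M) (hy : y ∈ M) : ρ (x - y) = ρ x - ρ y := by
  rw [eq_sub_iff_add_eq, ← hR.add _ (sub_mem hx hy) _ hy, sub_add_cancel]

theorem apply_apply {x z : H →L[ℂ] H} (hx : x ∈ M) (hz : z ∈ M) :
    ρ x (ρ z Ω) = ρ (x * z) Ω := by rw [hR.mul _ hx _ hz, mul_apply_eq_comp]

theorem norm_sq {x : H →L[ℂ] H} (hx : x ∈ M) : ‖ρ x Ω‖ ^ 2 = (φ (star x * x)).re := by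
  rw [← inner_self_eq_norm_sq (𝕜 := ℂ), hR.inner_eq _ hx _ hx]; rfl

theorem dense_set : Dense {ξ : K | ∃ z ∈ M, ρ z Ω = ξ} := by
  intro ξ
  rw [Metric.mem_closure_iff]
  intro η hη
  obtain ⟨z, hz, hd⟩ := hR.dense ξ (η / 2) (by positivity)
  refine ⟨_, ⟨z, hz, rfl⟩, ?_⟩
  rw [dist_comm, dist_eq_norm]
  linarith

/-- Normality: bounded strongly null families go to strongly null families. -/
theorem tendsto_zero (hφ : IsState M φ) {ι : Type*} {l : Filter ι} {x : ι → H →L[ℂ] H} {C : ℝ}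
    (hx : ∀ i, x i ∈ M) (hC : ∀ i, ‖x i‖ ≤ C) (h : ∀ v, Tendsto (fun i => x i v) l (𝓝 0))
    (ξ : K) : Tendsto (fun i => ρ (x i) ξ) l (𝓝 0) := by
  refine tendsto_of_dense (fun i => (hR.norm_le _ (hx i)).trans (hC i)) hR.dense_set ?_ ξ
  rintro _ ⟨z, hz, rfl⟩
  rw [tendsto_zero_iff_norm_tendsto_zero]
  have hb : ∀ i, ‖star (x i * z) * (x i * z)‖ ≤ (|C| * ‖z‖) * (|C| * ‖z‖) := fun i => by
    rw [CStarRing.norm_star_mul_self]
    have hle : ‖x i * z‖ ≤ |C| * ‖z‖ := (norm_mul_le _ _).trans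
      (mul_le_mul_of_nonneg_right ((hC i).trans (le_abs_self C)) (norm_nonneg _))
    exact mul_le_mul hle hle (norm_nonneg _) (by positivity)
  have h0 := GNS.tendsto_zero hφ (l := l)
    (fun i => mul_mem (star_mem (mul_mem (hx i) hz)) (mul_mem (hx i) hz)) hb fun u => by
      rw [tendsto_zero_iff_norm_tendsto_zero]
      refine squeeze_zero (fun _ => norm_nonneg _) (fun i => ?_)
        (by simpa using (h (z u)).norm.const_mul (|C| * ‖z‖))
      simp only [mul_apply_eq_comp]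
      refine ((star (x i * z)).le_opNorm _).trans (mul_le_mul_of_nonneg_right ?_ (norm_nonneg _))
      rw [norm_star]
      exact (norm_mul_le _ _).trans
        (mul_le_mul_of_nonneg_right ((hC i).trans (le_abs_self C)) (norm_nonneg _))
  have h1 := ((Complex.continuous_re.tendsto _).comp h0).sqrt
  simp only [Complex.zero_re, Real.sqrt_zero] at h1
  refine h1.congr fun i => ?_
  simp only [Function.comp_apply, hR.apply_apply (hx i) hz]
  rw [← hR.norm_sq (mul_mem (hx i) hz), Real.sqrt_sq (norm_nonneg _)]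

theorem separableSpace [TopologicalSpace.SeparableSpace H] (hφ : IsState M φ) :
    TopologicalSpace.SeparableSpace K := by
  classical
  have : SecondCountableTopology H := UniformSpace.secondCountable_of_separable H
  obtain ⟨D, hDc, hD⟩ := TopologicalSpace.exists_countable_dense H
  have := hDc.to_subtype
  let ev : (H →L[ℂ] H) → D → H := fun x v => x v
  let B : ℕ → Set (H →L[ℂ] H) := fun n => {x | x ∈ M ∧ ‖x‖ ≤ n}
  have hsep : ∀ n, ∃ S : Set (H →L[ℂ] H), S.Countable ∧ S ⊆ B n ∧ ev '' B n ⊆ closure (ev '' S) := by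
    intro n
    obtain ⟨t, hts, htc, htd⟩ :=
      (TopologicalSpace.IsSeparable.of_separableSpace (ev '' B n)).exists_countable_dense_subset
    choose g hg hge using fun z : t => hts z.2
    have := htc.to_subtype
    refine ⟨Set.range g, Set.countable_range g, Set.range_subset_iff.2 hg, htd.trans ?_⟩
    refine closure_mono fun z hz => ⟨g ⟨z, hz⟩, ⟨_, rfl⟩, hge ⟨z, hz⟩⟩
  choose S hSc hSB hSd using hsep
  refine ⟨⟨(fun z => ρ z Ω) '' ⋃ n, S n, (Set.countable_iUnion hSc).image _, ?_⟩⟩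
  refine fun ξ => closure_minimal ?_ isClosed_closure (hR.dense_set ξ)
  rintro _ ⟨z, hz, rfl⟩
  obtain ⟨n, hn⟩ := exists_nat_ge ‖z‖
  obtain ⟨q, hq, hlim⟩ := mem_closure_iff_seq_limit.1 (hSd n ⟨z, ⟨hz, hn⟩, rfl⟩)
  choose w hw hwe using hq
  refine mem_closure_iff_seq_limit.2
    ⟨fun k => ρ (w k) Ω, fun k => ⟨w k, Set.mem_iUnion.2 ⟨n, hw k⟩, rfl⟩, ?_⟩
  have hwB : ∀ k, w k ∈ B n := fun k => hSB n (hw k)
  have h0 : ∀ v, Tendsto (fun k => (w k - z) v) atTop (𝓝 0) := by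
    refine tendsto_of_dense (C := n + n) (fun k => (norm_sub_le _ _).trans
      (add_le_add (hwB k).2 hn)) hD fun v hv => ?_
    have := (tendsto_pi_nhds.1 hlim ⟨v, hv⟩).sub_const (z v)
    simpa [ev, ← hwe] using this
  have := hR.tendsto_zero hφ (x := fun k => w k - z) (C := n + n)
    (fun k => sub_mem (hwB k).1 hz)
    (fun k => (norm_sub_le _ _).trans (add_le_add (hwB k).2 hn)) h0 Ω
  rw [← tendsto_sub_nhds_zero_iff]
  refine this.congr fun k => ?_
  rw [hR.sub (hwB k).1 hz, sub_apply]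

/-- The image of `M` is sequentially strongly closed on bounded parts. -/
theorem exists_of_tendsto [TopologicalSpace.SeparableSpace H] (hφ : IsState M φ)
    {x : ℕ → H →L[ℂ] H} {C : ℝ} (hx : ∀ n, x n ∈ M) (hC : ∀ n, ‖x n‖ ≤ C) {y : K →L[ℂ] K}
    (h : ∀ ξ, Tendsto (fun n => ρ (x n) ξ) atTop (𝓝 (y ξ))) :
    ∃ a ∈ M, ‖a‖ ≤ C ∧ ρ a = y := by
  let U : Ultrafilter ℕ := Ultrafilter.of atTop
  have hU : (U : Filter ℕ) ≤ atTop := Ultrafilter.of_le _
  obtain ⟨a, ha, hn⟩ := exists_wot_limit U x hC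
  have haM : a ∈ M := mem_of_weak_limit M hx ha
  obtain ⟨e, he⟩ := TopologicalSpace.exists_dense_seq H
  let T : ℕ → Set (H →L[ℂ] H) := fun N => convexHull ℝ (x '' Set.Ici N)
  have hmem : ∀ N, ∀ c ∈ T N, c ∈ M ∧ ‖c‖ ≤ C := by
    intro N
    refine convexHull_min ?_ ?_
    · rintro _ ⟨m, -, rfl⟩; exact ⟨hx m, hC m⟩
    · intro c hc d hd s t hs ht hst
      refine ⟨?_, ?_⟩
      · exact add_mem (by simpa using smul_mem' M hc.1 (s : ℂ))
          (by simpa using smul_mem' M hd.1 (t : ℂ))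
      · calc ‖s • c + t • d‖ ≤ s * ‖c‖ + t * ‖d‖ := by
              refine (norm_add_le _ _).trans (le_of_eq ?_)
              rw [norm_smul, norm_smul, Real.norm_of_nonneg hs, Real.norm_of_nonneg ht]
          _ ≤ s * C + t * C := add_le_add (mul_le_mul_of_nonneg_left hc.2 hs)
              (mul_le_mul_of_nonneg_left hd.2 ht)
          _ = C := by rw [← add_mul, hst, one_mul]
  have hc : ∀ N, ∃ c ∈ T N, ∀ i : Fin (N + 1), ‖(c - a) (e i)‖ ≤ 1 / ((N : ℝ) + 1) := by
    intro N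
    refine exists_close (convex_convexHull ℝ _)
      (Set.Nonempty.convexHull (Set.Nonempty.image x ⟨N, Set.self_mem_Ici⟩)) a (fun n v w η hη => ?_)
      (fun i => e i) (by positivity)
    have hl : Tendsto (fun m => (∑ i, ⟪w i, (x m - a) (v i)⟫_ℂ).re) (U : Filter ℕ) (𝓝 0) := by
      have : Tendsto (fun m => ∑ i, ⟪w i, (x m - a) (v i)⟫_ℂ) (U : Filter ℕ) (𝓝 0) := by
        rw [show (0 : ℂ) = ∑ _i : Fin n, (0 : ℂ) by simp]
        refine tendsto_finsetSum _ fun i _ => ?_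
        have := ((Complex.continuous_conj.tendsto _).comp (ha (v i) (w i))).sub_const
          ⟪w i, a (v i)⟫_ℂ
        simpa [Function.comp_def, inner_sub_right] using this
      have h2 := (Complex.continuous_re.tendsto _).comp this
      simpa only [Complex.zero_re, Function.comp_def] using h2
    obtain ⟨m, hm1, hm2⟩ := ((Metric.tendsto_nhds.1 hl η hη).and
      (hU (Ici_mem_atTop N))).exists
    exact ⟨x m, subset_convexHull ℝ _ ⟨m, hm2, rfl⟩, by simpa [Real.dist_eq] using hm1.le⟩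
  choose c hcT hcd using hc
  have h0 : ∀ v, Tendsto (fun N => (c N - a) v) atTop (𝓝 0) := by
    refine tendsto_of_dense (C := C + C) (fun N => (norm_sub_le _ _).trans
      (add_le_add (hmem _ _ (hcT N)).2 hn)) he ?_
    rintro _ ⟨i, rfl⟩
    refine squeeze_zero_norm' (eventually_atTop.2 ⟨i, fun N hN => ?_⟩)
      tendsto_one_div_add_atTop_nhds_zero_nat
    exact hcd N ⟨i, Nat.lt_succ_of_le hN⟩
  refine ⟨a, haM, hn, ContinuousLinearMap.ext fun ξ => ?_⟩
  have h1 : Tendsto (fun N => ρ (c N) ξ) atTop (𝓝 (ρ a ξ)) := by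
    rw [← tendsto_sub_nhds_zero_iff]
    refine (hR.tendsto_zero hφ (x := fun N => c N - a) (C := C + C)
      (fun N => sub_mem (hmem _ _ (hcT N)).1 haM)
      (fun N => (norm_sub_le _ _).trans (add_le_add (hmem _ _ (hcT N)).2 hn)) h0 ξ).congr fun N => ?_
    rw [hR.sub (hmem _ _ (hcT N)).1 haM, sub_apply]
  refine tendsto_nhds_unique h1 (Metric.tendsto_atTop.2 fun ε hε => ?_)
  obtain ⟨N0, hN0⟩ := Metric.tendsto_atTop.1 (h ξ) ε hε
  refine ⟨N0, fun N hN => ?_⟩
  have hconv : Convex ℝ {z : H →L[ℂ] H | z ∈ M ∧ ρ z ξ ∈ Metric.ball (y ξ) ε} := by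
    intro p hp q hq s t hs ht hst
    have e1 : ∀ (r : ℝ) (z : H →L[ℂ] H), r • z = (r : ℂ) • z := fun r z => (Complex.coe_smul r z).symm
    have hps := smul_mem' M hp.1 (s : ℂ)
    have hqt := smul_mem' M hq.1 (t : ℂ)
    refine ⟨by rw [e1, e1]; exact add_mem hps hqt, ?_⟩
    rw [e1, e1, hR.add _ hps _ hqt, hR.smul _ _ hp.1, hR.smul _ _ hq.1, add_apply, smul_apply,
      smul_apply, Complex.coe_smul, Complex.coe_smul]
    exact convex_ball (y ξ) ε hp.2 hq.2 hs ht hst
  exact (convexHull_min (by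
    rintro _ ⟨m, hm, rfl⟩
    exact ⟨hx m, hN0 m (hN.trans hm)⟩) hconv (hcT N)).2

end IsRep

end Vale.Agent.P132.GNS
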