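import Vale.Agent.P132.GNS.Basic

/-!
# The GNS representation of a faithful normal state
-/

namespace Vale.Agent.P132.GNS

open scoped InnerProductSpace Topology ComplexOrder
open Filter Vale.Agent.P078.General UniformSpace

universe u v

variable {H : Type u} [NormedAddCommGroup H] [InnerProductSpace ℂ H] [CompleteSpace H]
variable {M : VonNeumannAlgebra H} {φ : (H →L[ℂ] H) →ₗ[ℂ] ℂ}

/-- `ρ` with `Ω` is the GNS representation of `φ`. -/
structure IsRep {K : Type v} [NormedAddCommGroup K] [InnerProductSpace ℂ K] [CompleteSpace K]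
    (M : VonNeumannAlgebra H) (φ : (H →L[ℂ] H) →ₗ[ℂ] ℂ) (Ω : K)
    (ρ : (H →L[ℂ] H) → K →L[ℂ] K) : Prop where
  add : ∀ x ∈ M, ∀ y ∈ M, ρ (x + y) = ρ x + ρ y
  mul : ∀ x ∈ M, ∀ y ∈ M, ρ (x * y) = ρ x * ρ y
  smul : ∀ (c : ℂ), ∀ x ∈ M, ρ (c • x) = c • ρ x
  one : ρ 1 = 1
  star_eq : ∀ x ∈ M, ρ (star x) = star (ρ x)
  norm_le : ∀ x ∈ M, ‖ρ x‖ ≤ ‖x‖
  inner_eq : ∀ x ∈ M, ∀ y ∈ M, ⟪ρ x Ω, ρ y Ω⟫_ℂ = φ (star x * y)
  dense : ∀ ξ : K, ∀ η : ℝ, 0 < η → ∃ x ∈ M, ‖ρ x Ω - ξ‖ ≤ η

/-- `M` with the inner product of `φ`. -/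
def Pre (_hφ : IsState M φ) : Type u := ↥M.toStarSubalgebra

variable (hφ : IsState M φ)

noncomputable instance : AddCommGroup (Pre hφ) :=
  inferInstanceAs (AddCommGroup ↥M.toStarSubalgebra)
noncomputable instance : Module ℂ (Pre hφ) := inferInstanceAs (Module ℂ ↥M.toStarSubalgebra)

/-- The operator of a vector. -/
def Pre.op {hφ : IsState M φ} : Pre hφ →ₗ[ℂ] (H →L[ℂ] H) :=
  M.toStarSubalgebra.toSubalgebra.toSubmodule.subtype

theorem Pre.op_mem (a : Pre hφ) : Pre.op a ∈ M := a.2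

theorem Pre.op_inj {a b : Pre hφ} (h : Pre.op a = Pre.op b) : a = b := Subtype.ext h

/-- The vector of an operator. -/
def Pre.mk (x : H →L[ℂ] H) (hx : x ∈ M) : Pre hφ := ⟨x, hx⟩

theorem Pre.op_mk (x : H →L[ℂ] H) (hx : x ∈ M) : Pre.op (Pre.mk hφ x hx) = x := rfl

/-- The inner product. -/
noncomputable abbrev core : InnerProductSpace.Core ℂ (Pre hφ) where
  inner a b := φ (star (Pre.op a) * Pre.op b)
  conj_inner_symm a b := map_star_mul hφ (Pre.op_mem hφ a) (Pre.op_mem hφ b)
  re_inner_nonneg a := (pos_re hφ (Pre.op_mem hφ a)).1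
  add_left a b c := by simp [map_add, add_mul]
  smul_left a b r := by simp [map_smul]
  definite a h := Pre.op_inj hφ ((hφ.faithful _ (Pre.op_mem hφ a) h).trans (map_zero _).symm)

noncomputable instance : NormedAddCommGroup (Pre hφ) :=
  InnerProductSpace.Core.toNormedAddCommGroup (cd := core hφ)
noncomputable instance : InnerProductSpace ℂ (Pre hφ) := InnerProductSpace.ofCore (core hφ).toCore

theorem Pre.inner_eq (a b : Pre hφ) : ⟪a, b⟫_ℂ = φ (star (Pre.op a) * Pre.op b) := rfl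

theorem Pre.norm_sq_eq (a : Pre hφ) : ‖a‖ ^ 2 = (φ (star (Pre.op a) * Pre.op a)).re :=
  (inner_self_eq_norm_sq (𝕜 := ℂ) a).symm

open Classical in
/-- Left multiplication, zero off `M`. -/
noncomputable def lmul (x : H →L[ℂ] H) : Pre hφ →L[ℂ] Pre hφ :=
  if hx : x ∈ M then
    LinearMap.mkContinuous
      { toFun := fun a => Pre.mk hφ (x * Pre.op a) (mul_mem hx (Pre.op_mem hφ a))
        map_add' := fun a b => Pre.op_inj hφ (by simp [Pre.op_mk, map_add, mul_add])
        map_smul' := fun c a => Pre.op_inj hφ (by simp [Pre.op_mk, map_smul]) }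
      ‖x‖ fun a => by
        rw [← sq_le_sq₀ (norm_nonneg _) (by positivity), mul_pow, Pre.norm_sq_eq, Pre.norm_sq_eq]
        exact sq_mul_le hφ hx (Pre.op_mem hφ a)
  else 0

theorem op_lmul {x : H →L[ℂ] H} (hx : x ∈ M) (a : Pre hφ) :
    Pre.op (lmul hφ x a) = x * Pre.op a := by
  rw [lmul, dif_pos hx]; rfl

/-- The representation on the completion. -/
noncomputable def rep (x : H →L[ℂ] H) : Completion (Pre hφ) →L[ℂ] Completion (Pre hφ) :=
  (lmul hφ x).completion

theorem rep_coe (x : H →L[ℂ] H) (a : Pre hφ) : rep hφ x (a : Completion (Pre hφ)) = lmul hφ x a :=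
  ContinuousLinearMap.completion_apply_coe _ _

theorem ext_coe {S T : Completion (Pre hφ) →L[ℂ] Completion (Pre hφ)}
    (h : ∀ a : Pre hφ, S a = T a) : S = T := by
  ext z
  induction z using Completion.induction_on with
  | hp => exact isClosed_eq S.continuous T.continuous
  | ih a => exact h a

theorem exists_rep (hφ : IsState M φ) :
    ∃ (K : Type u) (_ : NormedAddCommGroup K) (_ : InnerProductSpace ℂ K) (_ : CompleteSpace K)
      (Ω : K) (ρ : (H →L[ℂ] H) → K →L[ℂ] K), IsRep M φ Ω ρ := by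
  refine ⟨Completion (Pre hφ), inferInstance, inferInstance, inferInstance,
    (Pre.mk hφ 1 (one_mem M) : Pre hφ), rep hφ,
    ⟨fun x hx y hy => ?_, fun x hx y hy => ?_, fun c x hx => ?_, ?_, fun x hx => ?_,
      fun x hx => ?_, fun x hx y hy => ?_, fun ξ η hη => ?_⟩⟩
  · refine ext_coe hφ fun a => ?_
    rw [add_apply, rep_coe, rep_coe, rep_coe, ← Completion.coe_add]
    congr 1
    exact Pre.op_inj hφ (by rw [map_add, op_lmul hφ (add_mem hx hy), op_lmul hφ hx, op_lmul hφ hy,
      add_mul])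
  · refine ext_coe hφ fun a => ?_
    rw [mul_apply_eq_comp, rep_coe, rep_coe, rep_coe]
    congr 1
    exact Pre.op_inj hφ (by rw [op_lmul hφ (mul_mem hx hy), op_lmul hφ hx, op_lmul hφ hy,
      mul_assoc])
  · refine ext_coe hφ fun a => ?_
    rw [smul_apply, rep_coe, rep_coe, ← Completion.coe_smul]
    congr 1
    exact Pre.op_inj hφ (by rw [map_smul, op_lmul hφ (smul_mem' M hx c), op_lmul hφ hx,
      smul_mul_assoc])
  · refine ext_coe hφ fun a => ?_
    rw [one_apply_eq_self, rep_coe]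
    congr 1
    exact Pre.op_inj hφ (by rw [op_lmul hφ (one_mem M), one_mul])
  · refine ((ContinuousLinearMap.eq_adjoint_iff _ (rep hφ x)).2 fun z w => ?_).trans
      (ContinuousLinearMap.star_eq_adjoint (rep hφ x)).symm
    induction z, w using Completion.induction_on₂ with
    | hp => apply isClosed_eq <;> fun_prop
    | ih a b =>
      rw [rep_coe, rep_coe, Completion.inner_coe, Completion.inner_coe, Pre.inner_eq, Pre.inner_eq,
        op_lmul hφ (star_mem hx), op_lmul hφ hx, star_mul, star_star, mul_assoc]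
  · refine ContinuousLinearMap.opNorm_le_bound _ (norm_nonneg x) fun z => ?_
    induction z using Completion.induction_on with
    | hp => apply isClosed_le <;> fun_prop
    | ih a =>
      rw [rep_coe, Completion.norm_coe, Completion.norm_coe]
      refine (ContinuousLinearMap.le_opNorm _ _).trans ?_
      refine mul_le_mul_of_nonneg_right ?_ (norm_nonneg _)
      rw [lmul, dif_pos hx]
      exact LinearMap.mkContinuous_norm_le _ (norm_nonneg _) _
  · rw [rep_coe, rep_coe, Completion.inner_coe, Pre.inner_eq, op_lmul hφ hx, op_lmul hφ hy,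
      Pre.op_mk, mul_one, mul_one]
  · obtain ⟨_, ⟨a, rfl⟩, ha⟩ :=
      Metric.mem_closure_iff.1 (Completion.denseRange_coe (α := Pre hφ) ξ) η hη
    refine ⟨Pre.op a, Pre.op_mem hφ a, ?_⟩
    rw [rep_coe, show lmul hφ (Pre.op a) (Pre.mk hφ 1 (one_mem M)) = a from
      Pre.op_inj hφ (by rw [op_lmul hφ (Pre.op_mem hφ a), Pre.op_mk, mul_one]),
      ← dist_eq_norm, dist_comm]
    exact ha.le

end Vale.Agent.P132.GNS
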